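import Vale.Agent.P207.SPH.H207.Grow

/-!
# P207, SPH, R15: preparations (subadditive functions of a real parameter, bounds)
-/

open Matrix MeasureTheory Set Filter Topology

noncomputable section

namespace Vale.Agent.P207.SPH.H207

open Vale.Agent.P207.SPH

/-- Fekete's lemma for a real parameter -/
lemma fekete {F : ℝ → ℝ} (hsub : ∀ s t, 0 ≤ s → 0 ≤ t → F (s + t) ≤ F s + F t) (C : ℝ)
    (hb : ∀ t, 0 ≤ t → |F t| ≤ C * (1 + t)) :
    ∃ L, (∀ T, 0 < T → L * T ≤ F T) ∧ Tendsto (fun T => F T / T) atTop (𝓝 L) := by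
  have hC : 0 ≤ C := by
    have h1 := hb 0 le_rfl
    have h2 := abs_nonneg (F 0)
    linarith
  have hn : ∀ (n : ℕ) t r, 0 ≤ t → 0 ≤ r → F (n * t + r) ≤ n * F t + F r := by
    intro n t r ht hr
    induction n with
    | zero => simp
    | succ n ih =>
      have h1 := hsub t (n * t + r) ht (by positivity)
      have h2 : t + (n * t + r) = ((n + 1 : ℕ) : ℝ) * t + r := by
        push_cast
        ring
      rw [h2] at h1
      push_cast at h1 ⊢
      linarith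
  have hlow : ∀ t, 0 < t → -C ≤ F t / t := by
    intro t ht
    rw [le_div_iff₀ ht]
    by_contra hcon
    push Not at hcon
    obtain ⟨δ, hδ⟩ : ∃ δ, δ = -C * t - F t := ⟨_, rfl⟩
    have hδ0 : 0 < δ := by linarith
    obtain ⟨n, hn1⟩ := exists_nat_gt (2 * C / δ)
    rw [div_lt_iff₀ hδ0] at hn1
    have h1 := hn n t 0 ht.le le_rfl
    rw [add_zero] at h1
    have h2 := (abs_le.1 (hb (n * t) (by positivity))).1
    have h3 := (abs_le.1 (hb 0 le_rfl)).2
    have h4 : (n : ℝ) * δ = -C * (n * t) - n * F t := by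
      rw [hδ]
      ring
    linarith
  obtain ⟨A, hA⟩ : ∃ A : Set ℝ, A = {x | ∃ t, 0 < t ∧ x = F t / t} := ⟨_, rfl⟩
  have hAb : BddBelow A := ⟨-C, by
    rw [hA]
    rintro x ⟨t, ht, rfl⟩
    exact hlow t ht⟩
  have hAn : A.Nonempty := ⟨F 1 / 1, by
    rw [hA]
    exact ⟨1, one_pos, rfl⟩⟩
  have hle : ∀ T, 0 < T → sInf A ≤ F T / T := fun T hT => csInf_le hAb (by
    rw [hA]
    exact ⟨T, hT, rfl⟩)
  refine ⟨sInf A, fun T hT => (le_div_iff₀ hT).1 (hle T hT), ?_⟩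
  refine tendsto_order.2 ⟨fun x hx => ?_, fun x hx => ?_⟩
  · filter_upwards [eventually_gt_atTop 0] with T hT
    exact hx.trans_le (hle T hT)
  · obtain ⟨y, hy, hyx⟩ := exists_lt_of_csInf_lt hAn hx
    rw [hA] at hy
    obtain ⟨t, ht, rfl⟩ := hy
    obtain ⟨c, hc⟩ : ∃ c, c = F t / t := ⟨_, rfl⟩
    rw [← hc] at hyx
    have hct : F t = c * t := by
      rw [hc]
      field_simp
    obtain ⟨E, hE⟩ : ∃ E, E = |c| * t + C * (1 + t) := ⟨_, rfl⟩
    have hE0 : 0 ≤ E := by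
      rw [hE]
      positivity
    filter_upwards [eventually_gt_atTop (E / (x - c)), eventually_gt_atTop 0] with T h1 h2
    rw [div_lt_iff₀ (by linarith)] at h1
    rw [div_lt_iff₀ h2]
    obtain ⟨n, hnn⟩ : ∃ n, n = ⌊T / t⌋₊ := ⟨_, rfl⟩
    have h3 : (n : ℝ) * t ≤ T := by
      rw [← le_div_iff₀ ht, hnn]
      exact Nat.floor_le (by positivity)
    have h4 : T < (n + 1) * t := by
      rw [← div_lt_iff₀ ht, hnn]
      exact Nat.lt_floor_add_one _
    obtain ⟨r, hr⟩ : ∃ r, r = T - n * t := ⟨_, rfl⟩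
    have hr0 : 0 ≤ r := by linarith
    have hrt : r ≤ t := by nlinarith
    have h5 := hn n t r ht.le hr0
    have h6 : (n : ℝ) * t + r = T := by linarith
    rw [h6, hct] at h5
    have h7 := (abs_le.1 (hb r hr0)).2
    have h8 : C * (1 + r) ≤ C * (1 + t) := by
      apply mul_le_mul_of_nonneg_left _ hC
      linarith
    have h9 : (n : ℝ) * (c * t) = c * T - c * r := by
      rw [← h6]
      ring
    have h10 : -(c * r) ≤ |c| * t := by
      calc -(c * r) ≤ |c * r| := neg_le_abs _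
        _ = |c| * r := by rw [abs_mul, abs_of_nonneg hr0]
        _ ≤ |c| * t := mul_le_mul_of_nonneg_left hrt (abs_nonneg _)
    have h11 : x * T = c * T + T * (x - c) := by ring
    linarith

variable {m : ℕ} {X : Type} [TopologicalSpace X]

lemma quad {k : ℕ} (W : Matrix (Fin m) (Fin k) ℝ) (P : Mt m) (x : Fin k → ℝ) :
    x ⬝ᵥ ((Wᵀ * P * W) *ᵥ x) = (W *ᵥ x) ⬝ᵥ (P *ᵥ (W *ᵥ x)) := by
  rw [← mulVec_mulVec, ← mulVec_mulVec, dotProduct_mulVec, vecMul_transpose]

lemma sym_S (D : Sys m X) (f : X) : (D.S f)ᵀ = D.S f := by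
  rw [Sys.S, transpose_add, D.sU, D.sV]

lemma lo_S (D : Sys m X) (f : X) (x : Fin m → ℝ) :
    2 * D.a * (x ⬝ᵥ x) ≤ x ⬝ᵥ (D.S f *ᵥ x) := by
  rw [Sys.S, add_mulVec, dotProduct_add]
  have h1 := D.loU f x
  have h2 := D.loV f x
  linarith

lemma sq_nonneg' {k : ℕ} (x : Fin k → ℝ) : 0 ≤ x ⬝ᵥ x :=
  Finset.sum_nonneg fun i _ => mul_self_nonneg (x i)

lemma hi_S (D : Sys m X) (f : X) (x : Fin m → ℝ) :
    x ⬝ᵥ (D.S f *ᵥ x) ≤ 2 * max D.a D.b * (x ⬝ᵥ x) := by
  rw [Sys.S, add_mulVec, dotProduct_add]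
  have h1 := D.hiU f x
  have h2 := D.hiV f x
  have h3 : D.b * (x ⬝ᵥ x) ≤ max D.a D.b * (x ⬝ᵥ x) :=
    mul_le_mul_of_nonneg_right (le_max_right _ _) (sq_nonneg' x)
  linarith

lemma cont_S (D : Sys m X) : Continuous D.S := D.cU.add D.cV

lemma det_S_ne (D : Sys m X) (f : X) : (D.S f).det ≠ 0 := by
  intro h
  obtain ⟨v, hv, hv0⟩ := Matrix.exists_mulVec_eq_zero_iff.2 h
  have h1 := lo_S D f v
  rw [hv0, dotProduct_zero] at h1
  have h2 : 0 < v ⬝ᵥ v := lt_of_le_of_ne (sq_nonneg' v)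
    (fun h => hv (dotProduct_self_eq_zero.1 h.symm))
  have h3 := mul_pos (mul_pos two_pos D.a_pos) h2
  linarith

lemma cont_A (D : Sys m X) {Y Z : ℝ → X → Mt m} (hY : Fund D D.U Y)
    (hZ : Fund D (fun f => -D.V f) Z) (T : ℝ) : Continuous fun f => D.A Y Z T f := by
  have h1 : Continuous fun f => Y T f := hY.cont.comp (Continuous.prodMk_right T)
  have h2 : Continuous fun f => Z T f := hZ.cont.comp (Continuous.prodMk_right T)
  have h3 : Continuous fun f => (D.S f)⁻¹ := by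
    have h4 : (fun f => (D.S f)⁻¹) = fun f => (D.S f).det⁻¹ • (D.S f).adjugate := by
      funext f
      rw [Matrix.inv_def, Ring.inverse_eq_inv']
    rw [h4]
    exact ((cont_S D).matrix_det.inv₀ (det_S_ne D)).smul (cont_S D).matrix_adjugate
  exact (h1.sub h2).matrix_mul h3

lemma exists_bound [CompactSpace X] {g : X → ℝ} (hg : Continuous g) :
    ∃ M, 0 ≤ M ∧ ∀ f, |g f| ≤ M := by
  obtain ⟨C, hC⟩ := isCompact_univ.exists_bound_of_continuousOn (f := g) hg.continuousOn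
  exact ⟨max C 0, le_max_right _ _, fun f => (hC f (mem_univ f)).trans (le_max_left _ _)⟩

lemma integrable_cont [CompactSpace X] [MeasurableSpace X] [BorelSpace X] (μ : Measure X)
    [IsProbabilityMeasure μ] {g : X → ℝ} (hg : Continuous g) : Integrable g μ := by
  obtain ⟨M, _, hM⟩ := exists_bound hg
  exact Integrable.of_bound hg.aestronglyMeasurable M (Eventually.of_forall fun x => hM x)

/-- the determinant of a symmetric matrix which is at least `c` -/
lemma det_ge (hE : EigStmt) {k : ℕ} (G : Mt k) (hG : Gᵀ = G) (c : ℝ) (hc : 0 ≤ c)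
    (h : ∀ x, c * (x ⬝ᵥ x) ≤ x ⬝ᵥ (G *ᵥ x)) : c ^ k ≤ G.det := by
  obtain ⟨e, _, h1, _, h2, _⟩ := hE k G hG
  rw [h1]
  have h3 := h2 c h
  calc c ^ k = ∏ _i : Fin k, c := by rw [Finset.prod_const, Finset.card_univ, Fintype.card_fin]
    _ ≤ ∏ i, e i := Finset.prod_le_prod (fun _ _ => hc) fun i _ => h3 i

end Vale.Agent.P207.SPH.H207
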