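import Vale.Agent.P207.SPH.Defs

/-!
# P207, SPH, R2: growth of the fundamental solutions
-/

open Matrix MeasureTheory Set Filter Topology

noncomputable section

namespace Vale.Agent.P207.SPH.H207

open Vale.Agent.P207.SPH

variable {m : ℕ} {X : Type} [TopologicalSpace X]

/-- derivative of a column combination -/
lemma hasDerivAt_mulVec {D : Sys m X} {B : X → Mt m} {Y : ℝ → X → Mt m} (h : Fund D B Y)
    (f : X) (x : Fin m → ℝ) (t : ℝ) (i : Fin m) :
    HasDerivAt (fun s => (Y s f *ᵥ x) i) ((B (D.Φ t f) *ᵥ (Y t f *ᵥ x)) i) t := by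
  have h1 : HasDerivAt (fun s => ∑ j, Y s f i j * x j)
      (∑ j, (B (D.Φ t f) * Y t f) i j * x j) t :=
    HasDerivAt.fun_sum fun j _ => (h.der f t i j).mul_const (x j)
  rw [mulVec_mulVec]
  exact h1

/-- derivative of the square of the norm -/
lemma hasDerivAt_sq {D : Sys m X} {B : X → Mt m} {Y : ℝ → X → Mt m} (h : Fund D B Y)
    (f : X) (x : Fin m → ℝ) (t : ℝ) :
    HasDerivAt (fun s => (Y s f *ᵥ x) ⬝ᵥ (Y s f *ᵥ x))
      (2 * ((Y t f *ᵥ x) ⬝ᵥ (B (D.Φ t f) *ᵥ (Y t f *ᵥ x)))) t := by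
  have h1 : HasDerivAt (fun s => ∑ i, (Y s f *ᵥ x) i * (Y s f *ᵥ x) i)
      (∑ i, ((B (D.Φ t f) *ᵥ (Y t f *ᵥ x)) i * (Y t f *ᵥ x) i +
        (Y t f *ᵥ x) i * (B (D.Φ t f) *ᵥ (Y t f *ᵥ x)) i)) t :=
    HasDerivAt.fun_sum fun i _ => (hasDerivAt_mulVec h f x t i).mul (hasDerivAt_mulVec h f x t i)
  have h2 : 2 * ((Y t f *ᵥ x) ⬝ᵥ (B (D.Φ t f) *ᵥ (Y t f *ᵥ x))) =
      ∑ i, ((B (D.Φ t f) *ᵥ (Y t f *ᵥ x)) i * (Y t f *ᵥ x) i +
        (Y t f *ᵥ x) i * (B (D.Φ t f) *ᵥ (Y t f *ᵥ x)) i) := by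
    rw [dotProduct, Finset.mul_sum]
    exact Finset.sum_congr rfl fun i _ => by ring
  rw [h2]
  exact h1

/-- Gronwall, lower bound -/
lemma exp_le_of_deriv {q q' : ℝ → ℝ} (hq : ∀ t, HasDerivAt q (q' t) t) (c : ℝ)
    (h : ∀ t, c * q t ≤ q' t) (t : ℝ) (ht : 0 ≤ t) : Real.exp (c * t) * q 0 ≤ q t := by
  have h1 : ∀ s, HasDerivAt (fun s => Real.exp (-(c * s)) * q s)
      (Real.exp (-(c * s)) * (q' s - c * q s)) s := by
    intro s
    have h2 : HasDerivAt (fun s : ℝ => -(c * s)) (-(c * 1)) s :=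
      ((hasDerivAt_id s).const_mul c).neg
    have h3 := h2.exp.mul (hq s)
    refine h3.congr_deriv ?_
    ring
  have h2 : Monotone (fun s => Real.exp (-(c * s)) * q s) := by
    refine monotone_of_deriv_nonneg (fun s => (h1 s).differentiableAt) fun s => ?_
    rw [(h1 s).deriv]
    exact mul_nonneg (Real.exp_pos _).le (by linarith [h s])
  have h3 := h2 ht
  simp only [mul_zero, neg_zero, Real.exp_zero, one_mul] at h3
  calc Real.exp (c * t) * q 0 ≤ Real.exp (c * t) * (Real.exp (-(c * t)) * q t) :=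
        mul_le_mul_of_nonneg_left h3 (Real.exp_pos _).le
    _ = q t := by
        rw [← mul_assoc, ← Real.exp_add, add_neg_cancel, Real.exp_zero, one_mul]

/-- Gronwall, upper bound -/
lemma le_exp_of_deriv {q q' : ℝ → ℝ} (hq : ∀ t, HasDerivAt q (q' t) t) (c : ℝ)
    (h : ∀ t, q' t ≤ c * q t) (t : ℝ) (ht : 0 ≤ t) : q t ≤ Real.exp (c * t) * q 0 := by
  have h1 := exp_le_of_deriv (q := fun s => -q s) (q' := fun s => -q' s) (fun s => (hq s).neg) c
    (fun s => by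
      have := h s
      linarith) t ht
  linarith

/-- **R2** -/
theorem grow : GrowStmt := by
  intro m X _ _ D Y Z hY hZ t ht f x
  have hY0 : Y 0 f *ᵥ x = x := by rw [hY.zero, one_mulVec]
  have hZ0 : Z 0 f *ᵥ x = x := by rw [hZ.zero, one_mulVec]
  refine ⟨?_, ?_, ?_⟩
  · have h1 := exp_le_of_deriv (hasDerivAt_sq hY f x) (2 * D.a) (fun s => by
      have := D.loU (D.Φ s f) (Y s f *ᵥ x)
      linarith) t ht
    rwa [hY0] at h1
  · have h1 := le_exp_of_deriv (hasDerivAt_sq hY f x) (2 * D.b) (fun s => by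
      have := D.hiU (D.Φ s f) (Y s f *ᵥ x)
      linarith) t ht
    rwa [hY0] at h1
  · have h1 := le_exp_of_deriv (hasDerivAt_sq hZ f x) (-(2 * D.a)) (fun s => by
      have := D.loV (D.Φ s f) (Z s f *ᵥ x)
      rw [neg_mulVec, dotProduct_neg]
      linarith) t ht
    rw [hZ0] at h1
    rwa [neg_mul] at h1

end Vale.Agent.P207.SPH.H207
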