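import Vale.Agent.P207.SPH.H207.Fek
import Vale.Agent.P207.SPH.H40.Avg

/-!
# P207, SPH, R15: the exponents
-/

open Matrix MeasureTheory Set Filter Topology

noncomputable section

namespace Vale.Agent.P207.SPH.H207

open Vale.Agent.P207.SPH

variable {m : ℕ} {X : Type} [TopologicalSpace X]

lemma pprod_succ (e : Fin m → ℝ) (i : Fin m) : pprod ((i : ℕ) + 1) e = pprod i e * e i := by
  have h1 : e i = ∏ j, if j = i then e j else 1 := by
    rw [Finset.prod_ite_eq' Finset.univ i e, if_pos (Finset.mem_univ _)]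
  conv_rhs => rw [h1]
  rw [pprod, pprod, ← Finset.prod_mul_distrib]
  apply Finset.prod_congr rfl
  intro j _
  by_cases h2 : j = i
  · rw [h2, if_pos (Nat.lt_succ_self _), if_neg (lt_irrefl _), if_pos rfl, one_mul]
  · have h3 : (j : ℕ) ≠ i := fun h => h2 (Fin.ext h)
    rw [if_neg h2, mul_one]
    by_cases h4 : (j : ℕ) < i
    · rw [if_pos (by omega), if_pos h4]
    · rw [if_neg (by omega), if_neg h4]

lemma psum_succ' (e : Fin m → ℝ) (i : Fin m) : psum ((i : ℕ) + 1) e = psum i e + e i := by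
  have h1 : e i = ∑ j, if j = i then e j else 0 := by
    rw [Finset.sum_ite_eq' Finset.univ i e, if_pos (Finset.mem_univ _)]
  conv_rhs => rw [h1]
  rw [psum, psum, ← Finset.sum_add_distrib]
  apply Finset.sum_congr rfl
  intro j _
  by_cases h2 : j = i
  · rw [h2, if_pos (Nat.lt_succ_self _), if_neg (lt_irrefl _), if_pos rfl, zero_add]
  · have h3 : (j : ℕ) ≠ i := fun h => h2 (Fin.ext h)
    rw [if_neg h2, add_zero]
    by_cases h4 : (j : ℕ) < i
    · rw [if_pos (by omega), if_pos h4]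
    · rw [if_neg (by omega), if_neg h4]

lemma psum_diff (l : ℕ → ℝ) (k : ℕ) (hk : k ≤ m) :
    psum k (fun i : Fin m => l ((i : ℕ) + 1) - l i) = l k - l 0 := by
  induction k with
  | zero => simp [psum]
  | succ k ih =>
    have h1 := psum_succ' (fun i : Fin m => l ((i : ℕ) + 1) - l i) ⟨k, by omega⟩
    simp only at h1
    rw [h1, ih (by omega)]
    ring

lemma growY {D : Sys m X} {Y : ℝ → X → Mt m} (hY : Fund D D.U Y) (t : ℝ) (ht : 0 ≤ t) (f : X)
    (x : Fin m → ℝ) : Real.exp (2 * D.a * t) * (x ⬝ᵥ x) ≤ (Y t f *ᵥ x) ⬝ᵥ (Y t f *ᵥ x) := by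
  have h1 := exp_le_of_deriv (hasDerivAt_sq hY f x) (2 * D.a) (fun s => by
    have := D.loU (D.Φ s f) (Y s f *ᵥ x)
    linarith) t ht
  rwa [hY.zero, one_mulVec] at h1

lemma growZ {D : Sys m X} {Z : ℝ → X → Mt m} (hZ : Fund D (fun f => -D.V f) Z) (t : ℝ)
    (ht : 0 ≤ t) (f : X) (x : Fin m → ℝ) :
    (Z t f *ᵥ x) ⬝ᵥ (Z t f *ᵥ x) ≤ Real.exp (-(2 * D.a * t)) * (x ⬝ᵥ x) := by
  have h1 := le_exp_of_deriv (hasDerivAt_sq hZ f x) (-(2 * D.a)) (fun s => by
    have := D.loV (D.Φ s f) (Z s f *ᵥ x)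
    rw [neg_mulVec, dotProduct_neg]
    linarith) t ht
  rw [hZ.zero, one_mulVec] at h1
  rwa [neg_mul] at h1

/-- `log N` grows at most linearly -/
lemma logN_bound [CompactSpace X] (hE : EigStmt) (hK : KyStmt) (hN : NStmt) (hU : UpStmt)
    (D : Sys m X) {Y : ℝ → X → Mt m} (hY : Fund D D.U Y) {k : ℕ} (hk : k ≤ m) :
    ∃ C, 0 ≤ C ∧ ∀ T, 0 ≤ T → ∀ f, |Real.log (D.N Y k T f)| ≤ C * (1 + T) := by
  obtain ⟨M, hM0, hM⟩ := exists_bound ((hK m k hk).1.comp (cont_S D))
  have ha := D.a_pos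
  obtain ⟨b', hb'⟩ : ∃ b', b' = max D.a D.b := ⟨_, rfl⟩
  have hab' : D.a ≤ b' := hb' ▸ le_max_left _ _
  have hb0 : 0 < b' := ha.trans_le hab'
  obtain ⟨c, hc⟩ : ∃ c, c = D.a / b' := ⟨_, rfl⟩
  have hc0 : 0 < c := hc ▸ div_pos ha hb0
  refine ⟨M + k * |Real.log c|, by positivity, fun T hT f => ?_⟩
  have hpos := (hN m X D Y hY k hk).2.1 T f
  have hup : Real.log (D.N Y k T f) ≤ M * T := by
    have h1 := hU m X D Y hY k hk T hT f
    have h2 : Real.log (D.N Y k T f) ≤ ∫ s in (0 : ℝ)..T, sg k (D.S (D.Φ s f)) :=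
      (Real.log_le_iff_le_exp hpos).2 h1
    have h3 : ‖∫ s in (0 : ℝ)..T, sg k (D.S (D.Φ s f))‖ ≤ M * |T - 0| :=
      intervalIntegral.norm_integral_le_of_norm_le_const fun s _ => hM _
    rw [sub_zero, abs_of_nonneg hT, Real.norm_eq_abs] at h3
    exact h2.trans ((le_abs_self _).trans h3)
  have hlo : -(k * |Real.log c|) ≤ Real.log (D.N Y k T f) := by
    obtain ⟨W, hW, hNW, _⟩ := (hN m X D Y hY k hk).1 T f
    have h4 : c ^ k ≤ (Wᵀ * ((Y T f)ᵀ * D.S (D.Φ T f) * Y T f) * W).det := by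
      refine det_ge hE _ ?_ c hc0.le fun x => ?_
      · simp only [transpose_mul, transpose_transpose, sym_S, Matrix.mul_assoc]
      · rw [quad, quad]
        have h5 : x ⬝ᵥ x ≤ 2 * b' * ((W *ᵥ x) ⬝ᵥ (W *ᵥ x)) := by
          have h6 := hi_S D f (W *ᵥ x)
          rw [← quad, hW, one_mulVec, ← hb'] at h6
          exact h6
        have h7 := lo_S D (D.Φ T f) (Y T f *ᵥ (W *ᵥ x))
        have h8 := growY hY T hT f (W *ᵥ x)
        have h9 : (1 : ℝ) ≤ Real.exp (2 * D.a * T) := Real.one_le_exp (by positivity)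
        have h10 := sq_nonneg' (W *ᵥ x)
        have h11 : (W *ᵥ x) ⬝ᵥ (W *ᵥ x) ≤ Real.exp (2 * D.a * T) * ((W *ᵥ x) ⬝ᵥ (W *ᵥ x)) :=
          le_mul_of_one_le_left h10 h9
        calc c * (x ⬝ᵥ x) ≤ c * (2 * b' * ((W *ᵥ x) ⬝ᵥ (W *ᵥ x))) :=
              mul_le_mul_of_nonneg_left h5 hc0.le
          _ = 2 * D.a * ((W *ᵥ x) ⬝ᵥ (W *ᵥ x)) := by
              rw [hc]
              field_simp
          _ ≤ 2 * D.a * ((Y T f *ᵥ (W *ᵥ x)) ⬝ᵥ (Y T f *ᵥ (W *ᵥ x))) :=
              mul_le_mul_of_nonneg_left (h11.trans h8) (by positivity)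
          _ ≤ _ := h7
    rw [hNW]
    have h12 : Real.log (c ^ k) ≤
        Real.log (Wᵀ * ((Y T f)ᵀ * D.S (D.Φ T f) * Y T f) * W).det :=
      Real.log_le_log (by positivity) h4
    rw [Real.log_pow] at h12
    have h13 : -(k * |Real.log c|) ≤ k * Real.log c := by
      rw [← mul_neg]
      exact mul_le_mul_of_nonneg_left (neg_abs_le _) (Nat.cast_nonneg _)
    exact h13.trans h12
  rw [abs_le]
  have h14 : 0 ≤ k * |Real.log c| := by positivity
  have h15 : 0 ≤ M * T := by positivity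
  have h16 : 0 ≤ k * |Real.log c| * T := by positivity
  constructor <;> nlinarith

/-- the lower bound of `Aᵀ A` -/
lemma A_lower [CompactSpace X] (D : Sys m X) {Y Z : ℝ → X → Mt m} (hY : Fund D D.U Y)
    (hZ : Fund D (fun f => -D.V f) Z) : ∃ c, 0 < c ∧ ∀ T, 1 / (2 * D.a) ≤ T → ∀ f x,
      c * Real.exp (2 * D.a * T) * (x ⬝ᵥ x) ≤
        x ⬝ᵥ (((D.A Y Z T f)ᵀ * D.A Y Z T f) *ᵥ x) := by
  have ha := D.a_pos
  obtain ⟨M, hM0, hM⟩ := exists_bound (g := fun f => ∑ i, ∑ j, D.S f i j ^ 2) (by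
    have h1 := cont_S D
    fun_prop)
  refine ⟨1 / (4 * (M + 1)), by positivity, fun T hT f x => ?_⟩
  have hT0 : 0 ≤ T := le_trans (by positivity) hT
  have h2 : x ⬝ᵥ (((D.A Y Z T f)ᵀ * D.A Y Z T f) *ᵥ x) =
      (D.A Y Z T f *ᵥ x) ⬝ᵥ (D.A Y Z T f *ᵥ x) := by
    have := quad (D.A Y Z T f) 1 x
    rwa [Matrix.mul_one, one_mulVec] at this
  rw [h2]
  obtain ⟨y, hy⟩ : ∃ y, y = (D.S f)⁻¹ *ᵥ x := ⟨_, rfl⟩
  have hxy : D.S f *ᵥ y = x := by
    rw [hy, mulVec_mulVec, Matrix.mul_nonsing_inv _ (isUnit_iff_ne_zero.2 (det_S_ne D f)),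
      one_mulVec]
  have hA : D.A Y Z T f *ᵥ x = Y T f *ᵥ y - Z T f *ᵥ y := by
    rw [Sys.A, ← mulVec_mulVec, ← hy, sub_mulVec]
  -- `|S y|² ≤ M |y|²`
  have h3 : x ⬝ᵥ x ≤ (M + 1) * (y ⬝ᵥ y) := by
    have h4 : x ⬝ᵥ x ≤ (∑ i, ∑ j, D.S f i j ^ 2) * (y ⬝ᵥ y) := by
      rw [← hxy, dotProduct, Finset.sum_mul]
      apply Finset.sum_le_sum
      intro i _
      have h5 := Finset.sum_mul_sq_le_sq_mul_sq Finset.univ (fun j => D.S f i j) y
      have h6 : (D.S f *ᵥ y) i = ∑ j, D.S f i j * y j := rfl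
      have h7 : y ⬝ᵥ y = ∑ j, y j ^ 2 := by
        rw [dotProduct]
        exact Finset.sum_congr rfl fun j _ => by ring
      rw [h6, h7, ← pow_two]
      exact h5
    refine h4.trans (mul_le_mul_of_nonneg_right ?_ (sq_nonneg' y))
    have := (abs_le.1 (hM f)).2
    linarith
  have h8 : (1 / 2) * ((Y T f *ᵥ y) ⬝ᵥ (Y T f *ᵥ y)) - (Z T f *ᵥ y) ⬝ᵥ (Z T f *ᵥ y) ≤
      (Y T f *ᵥ y - Z T f *ᵥ y) ⬝ᵥ (Y T f *ᵥ y - Z T f *ᵥ y) := by
    rw [dotProduct, dotProduct, dotProduct, Finset.mul_sum, ← Finset.sum_sub_distrib]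
    apply Finset.sum_le_sum
    intro i _
    rw [Pi.sub_apply]
    nlinarith [sq_nonneg ((Y T f *ᵥ y) i - 2 * (Z T f *ᵥ y) i)]
  have h9 := growY hY T hT0 f y
  have h10 := growZ hZ T hT0 f y
  have h11 := sq_nonneg' y
  -- the exponentials
  have h12 : 1 ≤ 2 * D.a * T := by
    rw [div_le_iff₀ (by positivity)] at hT
    linarith
  have h13 : Real.exp (-(2 * D.a * T)) ≤ (1 / 4) * Real.exp (2 * D.a * T) := by
    have h14 : (2 : ℝ) ≤ Real.exp (2 * D.a * T) := by
      have := Real.add_one_le_exp (2 * D.a * T)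
      linarith
    rw [Real.exp_neg, inv_le_iff_one_le_mul₀ (Real.exp_pos _)]
    nlinarith
  rw [hA]
  have h15 : (1 / 4) * Real.exp (2 * D.a * T) * (y ⬝ᵥ y) ≤
      (Y T f *ᵥ y - Z T f *ᵥ y) ⬝ᵥ (Y T f *ᵥ y - Z T f *ᵥ y) := by
    have h16 := mul_le_mul_of_nonneg_right h13 h11
    linarith
  have h17 : 1 / (4 * (M + 1)) * Real.exp (2 * D.a * T) * (x ⬝ᵥ x) ≤
      1 / (4 * (M + 1)) * Real.exp (2 * D.a * T) * ((M + 1) * (y ⬝ᵥ y)) :=
    mul_le_mul_of_nonneg_left h3 (by positivity)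
  have h18 : 1 / (4 * (M + 1)) * Real.exp (2 * D.a * T) * ((M + 1) * (y ⬝ᵥ y)) =
      (1 / 4) * Real.exp (2 * D.a * T) * (y ⬝ᵥ y) := by
    have : M + 1 ≠ 0 := by positivity
    field_simp
  linarith

/-- **R15** -/
theorem lyap (hE : EigStmt) (hK : KyStmt) (hC : CompStmt) (hN : NStmt) (hU : UpStmt) :
    LyapStmt := by
  intro m X _ _ _ _ μ _ D Y Z hμ hY hZ
  have ha := D.a_pos
  obtain ⟨C, T₀, hC0, hcomp⟩ := hC m X D Y Z hY hZ
  obtain ⟨c, hc0, hlow⟩ := A_lower D hY hZ
  obtain ⟨F, hF⟩ : ∃ F : ℕ → ℝ → ℝ, F = fun k T => ∫ f, Real.log (D.N Y k T f) ∂μ := ⟨_, rfl⟩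
  obtain ⟨P, hP⟩ : ∃ P : ℕ → ℝ → ℝ, P = fun k T =>
    ∫ f, Real.log (topV k ((D.A Y Z T f)ᵀ * D.A Y Z T f)) ∂μ := ⟨_, rfl⟩
  have hNc : ∀ k ≤ m, ∀ T, Continuous fun f => Real.log (D.N Y k T f) := fun k hk T =>
    ((hN m X D Y hY k hk).2.2.1 T).log fun f => ((hN m X D Y hY k hk).2.1 T f).ne'
  have htp : ∀ k ≤ m, ∀ T, T₀ ≤ T → ∀ f,
      0 < topV k ((D.A Y Z T f)ᵀ * D.A Y Z T f) := fun k hk T hT f => by
    obtain ⟨h1, h2, _⟩ := hcomp T hT f k hk
    exact lt_of_lt_of_le (by positivity) h2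
  have htc : ∀ k ≤ m, ∀ T, T₀ ≤ T →
      Continuous fun f => Real.log (topV k ((D.A Y Z T f)ᵀ * D.A Y Z T f)) := fun k hk T hT => by
    have h1 := cont_A D hY hZ T
    exact ((hK m k hk).2.1.comp (h1.matrix_transpose.matrix_mul h1)).log
      fun f => (htp k hk T hT f).ne'
  -- Fekete
  have hfek : ∀ k, ∃ L, k ≤ m → (∀ T, 0 < T → L * T ≤ F k T) ∧
      Tendsto (fun T => F k T / T) atTop (𝓝 L) := by
    intro k
    by_cases hk : k ≤ m
    · obtain ⟨B, hB0, hB⟩ := logN_bound hE hK hN hU D hY hk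
      have hsub : ∀ s t, 0 ≤ s → 0 ≤ t → F k (s + t) ≤ F k s + F k t := by
        intro s t hs ht
        rw [hF]
        have h3 : ∫ f, Real.log (D.N Y k s (D.Φ t f)) ∂μ = ∫ f, Real.log (D.N Y k s f) ∂μ := by
          have h2 := (hμ t).map_eq
          conv_rhs => rw [← h2]
          exact (integral_map (hμ t).measurable.aemeasurable
            (hNc k hk s).aestronglyMeasurable).symm
        have h4 : Continuous fun f => Real.log (D.N Y k s (D.Φ t f)) :=
          (hNc k hk s).comp (D.cont.comp (Continuous.prodMk_right t))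
        simp only
        rw [← h3, ← integral_add (integrable_cont μ h4) (integrable_cont μ (hNc k hk t))]
        refine integral_mono (integrable_cont μ (hNc k hk _))
          ((integrable_cont μ h4).add (integrable_cont μ (hNc k hk t))) fun f => ?_
        simp only
        have h5 := (hN m X D Y hY k hk).2.1
        have h6 := Real.log_le_log (h5 (s + t) f) ((hN m X D Y hY k hk).2.2.2.1 s t f)
        rw [Real.log_mul (h5 _ _).ne' (h5 _ _).ne'] at h6
        exact h6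
      have hbd : ∀ t, 0 ≤ t → |F k t| ≤ B * (1 + t) := by
        intro t ht
        rw [hF]
        have h3 : ‖∫ f, Real.log (D.N Y k t f) ∂μ‖ ≤ B * (1 + t) * μ.real univ :=
          norm_integral_le_of_norm_le_const (Eventually.of_forall fun f => hB t ht f)
        rwa [probReal_univ, mul_one] at h3
      obtain ⟨L, h1, h2⟩ := fekete hsub B hbd
      exact ⟨L, fun _ => ⟨h1, h2⟩⟩
    · exact ⟨0, fun h => absurd h hk⟩
  choose L hL using hfek
  -- comparison
  have hPF : ∀ k ≤ m, ∀ T, T₀ ≤ T → |P k T - F k T| ≤ |Real.log C| := by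
    intro k hk T hT
    rw [hP, hF]
    simp only
    rw [← integral_sub (integrable_cont μ (htc k hk T hT)) (integrable_cont μ (hNc k hk T))]
    have h3 : ‖∫ f, (Real.log (topV k ((D.A Y Z T f)ᵀ * D.A Y Z T f)) -
        Real.log (D.N Y k T f)) ∂μ‖ ≤ |Real.log C| * μ.real univ := by
      refine norm_integral_le_of_norm_le_const (Eventually.of_forall fun f => ?_)
      obtain ⟨h1, h2, h3⟩ := hcomp T hT f k hk
      have h4 := htp k hk T hT f
      have h5 := Real.log_le_log (by positivity) h2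
      have h6 := Real.log_le_log h4 h3
      rw [Real.log_mul (by positivity) h1.ne', Real.log_inv] at h5
      rw [Real.log_mul hC0.ne' h1.ne'] at h6
      rw [Real.norm_eq_abs, abs_le]
      have h7 := neg_abs_le (Real.log C)
      have h8 := le_abs_self (Real.log C)
      constructor <;> linarith
    rwa [probReal_univ, mul_one] at h3
  have hFl : ∀ k ≤ m, Tendsto (fun T : ℝ => F k T / (2 * T)) atTop (𝓝 (L k / 2)) := by
    intro k hk
    have h1 := ((hL k hk).2).div_const 2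
    refine h1.congr fun T => ?_
    rw [div_div, mul_comm]
  have hinv : ∀ E : ℝ, Tendsto (fun T : ℝ => E / (2 * T)) atTop (𝓝 0) := by
    intro E
    have h1 : Tendsto (fun T : ℝ => 2 * T) atTop atTop :=
      tendsto_id.const_mul_atTop two_pos
    exact tendsto_const_nhds.div_atTop h1
  have hPl : ∀ k ≤ m, Tendsto (fun T : ℝ => P k T / (2 * T)) atTop (𝓝 (L k / 2)) := by
    intro k hk
    have h1 := (hFl k hk).sub (hinv |Real.log C|)
    have h2 := (hFl k hk).add (hinv |Real.log C|)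
    rw [sub_zero] at h1
    rw [add_zero] at h2
    refine tendsto_of_tendsto_of_tendsto_of_le_of_le' h1 h2 ?_ ?_
    · filter_upwards [eventually_ge_atTop T₀, eventually_gt_atTop 0] with T hT hT0
      rw [← sub_div]
      have h3 := (abs_le.1 (hPF k hk T hT)).1
      exact div_le_div_of_nonneg_right (by linarith) (by positivity)
    · filter_upwards [eventually_ge_atTop T₀, eventually_gt_atTop 0] with T hT hT0
      rw [← add_div]
      have h3 := (abs_le.1 (hPF k hk T hT)).2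
      exact div_le_div_of_nonneg_right (by linarith) (by positivity)
  -- `L 0 = 0`
  have hL0 : L 0 = 0 := by
    have h1 : ∀ T, F 0 T = 0 := by
      intro T
      rw [hF]
      have h2 : ∀ f, D.N Y 0 T f = 1 := by
        intro f
        obtain ⟨W, _, h3, _⟩ := (hN m X D Y hY 0 (Nat.zero_le _)).1 T f
        rw [h3, Matrix.det_isEmpty]
      simp only [h2, Real.log_one, integral_zero]
    have h2 := (hL 0 (Nat.zero_le _)).2
    simp only [h1, zero_div] at h2
    exact tendsto_nhds_unique h2 tendsto_const_nhds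
  obtain ⟨χ, hχ⟩ : ∃ χ : Fin m → ℝ, χ = fun i : Fin m =>
    L ((i : ℕ) + 1) / 2 - L (i : ℕ) / 2 := ⟨_, rfl⟩
  have hps : ∀ k ≤ m, psum k χ = L k / 2 := by
    intro k hk
    rw [hχ]
    rw [psum_diff (m := m) (fun j => L j / 2) k hk, hL0]
    ring
  -- eigenvalues of `Aᵀ A`
  have heig : ∀ T f, ∃ e : Fin m → ℝ, Antitone e ∧
      (1 / (2 * D.a) ≤ T → ∀ i, c * Real.exp (2 * D.a * T) ≤ e i) ∧
      (∀ k ≤ m, topV k ((D.A Y Z T f)ᵀ * D.A Y Z T f) = pprod k e) := by
    intro T f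
    obtain ⟨e, h1, _, _, h2, _, h3⟩ := hE m ((D.A Y Z T f)ᵀ * D.A Y Z T f)
      (by rw [transpose_mul, transpose_transpose])
    refine ⟨e, h1, fun hT => h2 _ fun x => hlow T hT f x, h3 fun x => ?_⟩
    have := quad (D.A Y Z T f) 1 x
    rw [Matrix.mul_one, one_mulVec] at this
    rw [this]
    exact sq_nonneg' _
  have hcon : ∀ i, i + 2 ≤ m → L (i + 2) / 2 - L (i + 1) / 2 ≤ L (i + 1) / 2 - L i / 2 := by
    intro i hi
    have h1 := (hPl (i + 2) hi).sub (hPl (i + 1) (by omega))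
    have h2 := (hPl (i + 1) (by omega)).sub (hPl i (by omega))
    refine le_of_tendsto_of_tendsto h1 h2 ?_
    filter_upwards [eventually_ge_atTop T₀, eventually_gt_atTop 0,
      eventually_ge_atTop (1 / (2 * D.a))] with T hT hT0 hTa
    rw [← sub_div, ← sub_div]
    refine div_le_div_of_nonneg_right ?_ (by positivity)
    rw [hP]
    simp only
    have i0 := integrable_cont μ (htc i (by omega) T hT)
    have i1 := integrable_cont μ (htc (i + 1) (by omega) T hT)
    have i2 := integrable_cont μ (htc (i + 2) hi T hT)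
    rw [← integral_sub i2 i1, ← integral_sub i1 i0]
    refine integral_mono (i2.sub i1) (i1.sub i0) fun f => ?_
    simp only
    obtain ⟨e, he, hep, het⟩ := heig T f
    have hep' := hep hTa
    have hepos : ∀ i, 0 < e i := fun i => lt_of_lt_of_le (by positivity) (hep' i)
    have p0 := htp i (by omega) T hT f
    have p1 := htp (i + 1) (by omega) T hT f
    rw [het i (by omega)] at p0 ⊢
    rw [het (i + 1) (by omega)] at p1 ⊢
    rw [het (i + 2) hi]
    have q1 := pprod_succ e ⟨i, by omega⟩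
    have q2 := pprod_succ e ⟨i + 1, by omega⟩
    simp only at q1 q2
    have r1 : Real.log (pprod (i + 1) e) = Real.log (pprod i e) + Real.log (e ⟨i, by omega⟩) := by
      rw [q1, Real.log_mul p0.ne' (hepos _).ne']
    have r2 : Real.log (pprod (i + 2) e) =
        Real.log (pprod (i + 1) e) + Real.log (e ⟨i + 1, by omega⟩) := by
      rw [show i + 2 = i + 1 + 1 by ring, q2, Real.log_mul p1.ne' (hepos _).ne']
    have r3 : Real.log (e ⟨i + 1, by omega⟩) ≤ Real.log (e ⟨i, by omega⟩) :=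
      Real.log_le_log (hepos _) (he (by
        rw [Fin.mk_le_mk]
        omega))
    rw [r2, r1]
    linarith
  have hage : ∀ i, i + 1 ≤ m → D.a ≤ L (i + 1) / 2 - L i / 2 := by
    intro i hi
    have h1 := (hPl (i + 1) hi).sub (hPl i (by omega))
    have h2 : Tendsto (fun T : ℝ => D.a + Real.log c / (2 * T)) atTop (𝓝 (D.a + 0)) :=
      tendsto_const_nhds.add (hinv _)
    rw [add_zero] at h2
    refine le_of_tendsto_of_tendsto h2 h1 ?_
    filter_upwards [eventually_ge_atTop T₀, eventually_gt_atTop 0,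
      eventually_ge_atTop (1 / (2 * D.a))] with T hT hT0 hTa
    have e1 : D.a + Real.log c / (2 * T) = (2 * D.a * T + Real.log c) / (2 * T) := by
      field_simp
    rw [← sub_div, e1]
    refine div_le_div_of_nonneg_right ?_ (by positivity)
    rw [hP]
    simp only
    have i0 := integrable_cont μ (htc i (by omega) T hT)
    have i1 := integrable_cont μ (htc (i + 1) (by omega) T hT)
    rw [← integral_sub i1 i0]
    have e2 : 2 * D.a * T + Real.log c = ∫ _f : X, (2 * D.a * T + Real.log c) ∂μ := by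
      rw [integral_const, probReal_univ, one_smul]
    rw [e2]
    refine integral_mono (integrable_const _) (i1.sub i0) fun f => ?_
    simp only
    obtain ⟨e, he, hep, het⟩ := heig T f
    have hep' := hep hTa
    have hepos : ∀ i, 0 < e i := fun i => lt_of_lt_of_le (by positivity) (hep' i)
    have p0 := htp i (by omega) T hT f
    rw [het i (by omega)] at p0 ⊢
    rw [het (i + 1) hi]
    have q1 := pprod_succ e ⟨i, by omega⟩
    simp only at q1
    rw [q1, Real.log_mul p0.ne' (hepos _).ne']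
    have r3 := Real.log_le_log (by positivity) (hep' ⟨i, by omega⟩)
    rw [Real.log_mul hc0.ne' (Real.exp_pos _).ne', Real.log_exp] at r3
    linarith
  refine ⟨χ, ?_, ?_, ?_, ?_, ?_, ?_⟩
  · intro i j hij
    obtain ⟨j, hj⟩ := j
    obtain ⟨i, hi⟩ := i
    rw [Fin.mk_le_mk] at hij
    rw [hχ]
    simp only
    induction j, hij using Nat.le_induction with
    | base => exact le_rfl
    | succ j hij ih => exact (hcon j (by omega)).trans (ih (by omega))
  · intro i
    rw [hχ]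
    exact hage i (by omega)
  · intro k hk
    rw [hps k hk]
    have h1 := hPl k hk
    rw [hP] at h1
    exact h1
  · intro k hk T hT
    rw [hps k hk]
    have h1 := (hL k hk).1 T hT
    rw [hF] at h1
    simp only at h1
    linarith
  · intro k hk
    rw [hps k hk]
    have h1 := hFl k hk
    rw [hF] at h1
    exact h1
  · have h1 : ∑ i, χ i = psum m χ := by
      rw [psum]
      exact Finset.sum_congr rfl fun i _ => by rw [if_pos i.2]
    rw [h1, hps m le_rfl]
    have h2 : ∀ T, 0 ≤ T → F m T = T * ∫ f, (D.S f).trace ∂μ := by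
      intro T hT
      rw [hF]
      simp only
      rw [← integral_flow_nonneg μ D hμ (F := fun f => (D.S f).trace)
        ((cont_S D).matrix_trace) hT]
      refine integral_congr_ae (Eventually.of_forall fun f => ?_)
      simp only
      rw [(hN m X D Y hY m le_rfl).2.2.2.2 T f, Real.log_exp]
    have h3 : Tendsto (fun T => F m T / T) atTop (𝓝 (∫ f, (D.S f).trace ∂μ)) := by
      refine tendsto_const_nhds.congr' ?_
      filter_upwards [eventually_gt_atTop 0] with T hT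
      rw [h2 T hT.le]
      field_simp
    have h4 := tendsto_nhds_unique (hL m le_rfl).2 h3
    rw [h4]
    ring

end Vale.Agent.P207.SPH.H207
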